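import Vale.Agent.Lib.P314.Main

namespace Vale.Agent.Results.P314.A_products

open Vale.Agent.Lib.P314

/-- Each entry of `fs` is a factor `g` with its degree bound and its two costs, see `Fact`. If the
product of the factors is nonzero and `D`, `B₁`, `B₂` exceed the totals, then the product is nonzero on
a tuple of `(D+1) × (D+1)` weighted shift matrices with weights `p ^ r + τ * p ^ r'`, where `p` runs over
consecutive primes, for some `r < B₁`, `r' < B₂`, `τ ≤ D`. -/
theorem result {n D B₁ B₂ : ℕ} (fs : List (NC n × ℕ × ℕ × ℕ))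
    (hfs : ∀ x ∈ fs, Fact x.1 x.2.1 x.2.2.1 x.2.2.2)
    (hD : (fs.map (·.2.1)).sum ≤ D) (h₁ : (fs.map (·.2.2.1)).sum < B₁)
    (h₂ : (fs.map (·.2.2.2)).sum < B₂) (hne : (fs.map (·.1)).prod ≠ 0) :
    ∃ r, r < B₁ ∧ ∃ r', r' < B₂ ∧ ∃ τ, τ ≤ D ∧
      FreeAlgebra.lift ℚ (shiftTuple D (genY n r r' τ)) (fs.map (·.1)).prod ≠ 0 :=
  main fs hfs hD h₁ h₂ hne

end Vale.Agent.Results.P314.A_products
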