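import Vale.Agent.Lib.P314.D3.Main

namespace Vale.Agent.Results.P314.B_depth3

open Vale.Agent.Lib.P314 Vale.Agent.Lib.P314.D3

/-- Every nonzero homogeneous noncommutative depth-three circuit `depth3 d c ℓ` of top fan-in `k` and degree `d ≤ 2 ^ L`
over `n` letters is nonzero at a `(d + 1) × (d + 1)` weighted shift tuple with weights `genD n k B r σ r₃ τ`, where
`r ≤ k d n`, `B` is a list of fewer than `k` numbers below `L`, `σ ≤ k ^ 3 d n`, `r₃ ≤ (2 ^ k k) ^ k`, `τ ≤ d`. -/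
theorem result {n k d L : ℕ} (hL : d ≤ 2 ^ L) (c : Fin k → ℚ) (ℓ : Fin k → ℕ → Fin n → ℚ)
    (hF : depth3 d c ℓ ≠ 0) :
    ∃ r, r < k * d * n + 1 ∧ ∃ B : List ℕ, B.length < k ∧ (∀ b ∈ B, b < L) ∧
      ∃ σ, σ < k ^ 3 * (d * n) + 1 ∧ ∃ r₃, r₃ < (2 ^ k * k) ^ k + 1 ∧ ∃ τ : ℕ, τ ≤ d ∧
        FreeAlgebra.lift ℚ (shiftTuple d (genD n k B r σ r₃ τ)) (depth3 d c ℓ) ≠ 0 :=
  depth3_hit hL c ℓ hF

end Vale.Agent.Results.P314.B_depth3
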